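import Vale.Agent.P290.H416.K3U
import Vale.Agent.P290.H143.ExistsEll
import Vale.Agent.P290.H362.Lat

/-!
# P290 (helper722): the inputs NegInput and Indep of the assembly for a `Geo` on helper342's lattice

`UGeo G U` : the lattice `G.T.H` is identified by `τ` with the lattice `Fin N → ℤ` of `U`, compatibly
with the form, the classes of norm functions and the periods. For helper342's `geo` all fields are
definitional (`τ` = identity).
-/

open scoped Manifold ContDiff Topology ComplexConjugate Matrix ComplexOrder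
open Set Filter Vale.Agent.P267 Vale.Agent.P267.H757 Vale.Agent.P267.H332 Vale.Agent.P267.FL
open Vale.Agent.P290.H342 Vale.Agent.P290.H362 Vale.Agent.P290.H445 Vale.Agent.P267.BlockC Vale.Agent.P267.RR

noncomputable section

namespace Vale.Agent.P290.H722

variable {X : All.K3} {N : ℕ}

/-- `G` lives on the lattice of `U` -/
structure UGeo (G : Geo X) (U : UData X.X N) where
  τ : G.T.H ≃+ (Fin N → ℤ)
  B : ∀ x y, U.B (τ x) (τ y) = G.T.B x y
  cl : ∀ N' : X.X → ℝ, IsNormFn FL.C2 N' → U.HasCl (cF N') (τ (G.T.cl N'))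
  σ : ∀ x, G.σ x = pair ⟨Om X, 0, 0⟩ (U.comb (τ x))

variable {G : Geo X} {U : UData X.X N} (T : UGeo G U)

include T in
/-- **NegInput** -/
theorem negInput (hS : H416.H02 X) : H143.NegInput G := by
  intro N' k e₀ c₀ hN hp hne hk hcl hce hee x hx hσ
  have hF : U.HasCl (cF N') ((k : ℤ) • T.τ e₀) := by
    have h := T.cl N' hN
    rw [hcl, map_nsmul] at h
    rwa [natCast_zsmul]
  obtain ⟨h1, h2⟩ := H416.neg_pair U hS (cF_smooth hN) (cF_closed hN) rfl rfl hp hne
    (e := T.τ e₀) (c := T.τ c₀) (k := k) (by exact_mod_cast hk.ne') hF (by rw [T.B, hee])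
    (by rw [T.B, hce]) (x := T.τ x) (by rw [T.B, hx]) (by rw [← T.σ, hσ])
  rw [T.B] at h1 h2
  refine ⟨h1, fun h => ?_⟩
  obtain ⟨j, hj⟩ := h2 h
  exact ⟨j, T.τ.injective (by rw [hj, map_zsmul])⟩

include T in
/-- **Indep** -/
theorem indep (hS : H416.H02 X) {e c : G.T.H} (hσ : G.σ e = 0) (hee : G.T.B e e = 0)
    (hc : G.T.B c e = 1) : Indep G e := by
  intro a b h
  refine H416.indep_pair U hS (e := T.τ e) (c := T.τ c) (by rw [← T.σ, hσ]) (by rw [T.B, hee])
    (by rw [T.B, hc]) fun x hx => ?_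
  obtain ⟨y, rfl⟩ := T.τ.surjective x
  rw [T.B] at hx
  have := h y hx
  rwa [T.σ] at this

include T in
/-- **Indep** as an input of helper362's `isOka_of_elliptic` -/
theorem indep_ell (hS : H416.H02 X) (e c : G.T.H) (A : Ell G.T e) (hσ : G.σ e = 0)
    (hc : G.T.B c e = 1) : Indep G e := indep T hS hσ A.sq hc

end Vale.Agent.P290.H722
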