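import Vale.Agent.P290.H722.PerLin
import Vale.Agent.P290.H722.Loc
import Vale.Agent.P290.H722.SmTrivDef
import Vale.Agent.P290.H445.Rrf

/-!
# P290, Phase 2 (helper722): the period map of a family of K3 surfaces is holomorphic

`S.T t` : the two-form of the fibre over `t`, transported to the fibre over `t₀` by the smooth
trivialisation `S`. It is a smooth family of closed forms, `S.dTb_eq`: its derivatives in the
directions `ū` are exact, and `S.hasFDerivAt_per`: its periods are holomorphic functions of `t`.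
-/

set_option linter.unusedSectionVars false
set_option linter.unusedVariables false

open scoped Manifold ContDiff Topology
open Set Filter Vale.Agent.P267 Vale.Agent.P267.FL Vale.Agent.P290.H805 Vale.Agent.P290.H95
  Vale.Agent.P290.H445 Vale.Agent.P290.H686 Vale.Agent.P267.RR Vale.Agent.P267.H332
  Vale.Agent.P267.BlockC

noncomputable section

namespace Vale.Agent.P290.H722

section gen

/-- the form `OmF` in a chart -/
theorem E2_OmF (Y : All.K3) {e : OpenPartialHomeomorph Y.X (ℂ × ℂ)} (he : e ∈ atlas (ℂ × ℂ) Y.X)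
    {p : ℂ × ℂ} (hp : p ∈ e.target) (a b : ℂ × ℂ) :
    E2 (toFL e) (OmF Y) (φ p) (φ a) (φ b) = Y.vol e p * det2 a b := by
  rw [E2, ev2_apply]
  have h11 : ∀ i j, loc11 (toFL e) (OmF Y).f11 (φ p) i j = 0 := by
    intro i j
    simp [loc11, OmF]
  have h02 : loc2 0 (toFL e) (OmF Y).f02 (φ p) = 0 := by
    simp [loc2, OmF]
  have h20 : loc0 1 (toFL e) (OmF Y).f20 (φ p) = Y.vol e p := by
    have h := loc_Om Y he (z := φ p) (by simpa using hp)
    rw [ContinuousLinearEquiv.symm_apply_apply] at h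
    exact h
  simp only [h11, h02, h20, zero_mul, Finset.sum_const_zero, add_zero]
  rw [det2]
  simp [φ_apply]

variable {X : Type*} [TopologicalSpace X] [ChartedSpace FL.C2 X] [IsManifold 𝓘(ℂ, FL.C2) ω X]

/-- the pullback of `OmF` in charts -/
theorem E2_pb2_OmF (Y : All.K3) {ψ : X → Y.X} (hψ : IsSm ψ) {e : Ch X} (he : e ∈ atlas FL.C2 X)
    {e' : OpenPartialHomeomorph Y.X (ℂ × ℂ)} (he' : e' ∈ atlas (ℂ × ℂ) Y.X) {x : X}
    (hx : x ∈ e.source) (hx' : ψ x ∈ e'.source) (ρ : FL.C2 → ℂ × ℂ)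
    (hρ : ∀ z, ρ z = e' (ψ (e.symm z))) {ρ' : FL.C2 →L[ℝ] ℂ × ℂ} (hd : HasFDerivAt ρ ρ' (e x))
    (a b : FL.C2) :
    E2 e (pb2 ψ (OmF Y)) (e x) a b = Y.vol e' (ρ (e x)) * det2 (ρ' a) (ρ' b) := by
  have h1 := E2_pb2 hψ (OmF Y) he (mem_atlas_toFL Y he') hx hx'
  have hrep : rep ψ e (toFL e') = fun z => φ (ρ z) := by
    funext z
    rw [hρ, rep, toFL_apply]
  have h2 : HasFDerivAt (fun z => φ (ρ z))
      (((φ : (ℂ × ℂ) →L[ℂ] FL.C2).restrictScalars ℝ).comp ρ') (e x) :=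
    ((φ : (ℂ × ℂ) →L[ℂ] FL.C2).restrictScalars ℝ).hasFDerivAt.comp (e x) hd
  have hpt : toFL e' (ψ x) = φ (ρ (e x)) := by
    rw [hρ, toFL_apply, e.left_inv hx]
  have hp : ρ (e x) ∈ e'.target := by
    rw [hρ, e.left_inv hx]
    exact e'.map_source hx'
  rw [h1, ContinuousLinearMap.bilinearComp_apply, hrep, h2.fderiv, hpt]
  exact E2_OmF Y he' hp _ _

end gen

variable {V : Type} [NormedAddCommGroup V] [NormedSpace ℂ V] {D : Set V}
  {E : Type} [TopologicalSpace E] [T2Space E] {𝓕 : K3Family V D E} {t₀ : D}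

namespace SmTriv

variable (S : SmTriv 𝓕 t₀)

open Classical in
/-- the two-form of the fibre over `t`, transported to the fibre over `t₀` -/
def T (t : V) : TwoF (𝓕.k3 t₀).X :=
  if h : t ∈ S.N then pb2 (S.homeo t h) (OmF (𝓕.k3 ⟨t, S.sub h⟩)) else 0

theorem T_eq {t : V} (h : t ∈ S.N) :
    S.T t = pb2 (S.homeo t h) (OmF (𝓕.k3 ⟨t, S.sub h⟩)) := by
  rw [T, dif_pos h]

theorem smooth_T (t : V) (h : t ∈ S.N) : (S.T t).Smooth := by
  rw [S.T_eq h]
  exact pb2_smooth (S.diffeo t h).smooth (OmF_smooth _)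

theorem closed_T (t : V) (h : t ∈ S.N) : (S.T t).Closed := by
  rw [S.T_eq h]
  exact pb2_closed (S.diffeo t h).smooth (OmF_smooth _) (OmF_closed _)

/-! ### the representatives -/

variable {t : V} {e : Ch (𝓕.k3 t₀).X} {x : (𝓕.k3 t₀).X}

theorem continuousAt_Φ (ht : t ∈ S.N) (hx : x ∈ e.source) :
    ContinuousAt (fun q : V × FL.C2 => S.Φ q.1 (e.symm q.2)) (t, e x) := by
  have h1 : ContinuousAt (fun q : V × (𝓕.k3 t₀).X => S.Φ q.1 q.2) (t, e.symm (e x)) :=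
    S.cont.continuousAt (prod_mem_nhds (S.isOpen.mem_nhds ht) univ_mem)
  have h2 : ContinuousAt (fun q : V × FL.C2 => (q.1, e.symm q.2)) (t, e x) :=
    continuousAt_fst.prodMk (ContinuousAt.comp (g := e.symm) (f := fun q : V × FL.C2 => q.2)
      (x := (t, e x)) (e.continuousAt_symm (e.map_source hx)) continuousAt_snd)
  exact ContinuousAt.comp (g := fun q : V × (𝓕.k3 t₀).X => S.Φ q.1 q.2)
    (f := fun q : V × FL.C2 => (q.1, e.symm q.2)) (x := (t, e x)) h1 h2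

theorem eventually_Φ (ht : t ∈ S.N) (hx : x ∈ e.source) {y : E}
    (hy : S.Φ t x ∈ (𝓕.F.triv y).source) : ∀ᶠ q : V × FL.C2 in 𝓝 (t, e x),
      q.1 ∈ S.N ∧ q.2 ∈ e.target ∧ S.Φ q.1 (e.symm q.2) ∈ (𝓕.F.triv y).source := by
  have h1 : ∀ᶠ q : V × FL.C2 in 𝓝 (t, e x), q.1 ∈ S.N :=
    continuousAt_fst.eventually_mem (S.isOpen.mem_nhds ht)
  have h2 : ∀ᶠ q : V × FL.C2 in 𝓝 (t, e x), q.2 ∈ e.target :=
    continuousAt_snd.eventually_mem (e.open_target.mem_nhds (e.map_source hx))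
  have h3 : ∀ᶠ q : V × FL.C2 in 𝓝 (t, e x), S.Φ q.1 (e.symm q.2) ∈ (𝓕.F.triv y).source := by
    apply (S.continuousAt_Φ ht hx).eventually_mem
    simp only [e.left_inv hx]
    exact (𝓕.F.triv y).open_source.mem_nhds hy
  filter_upwards [h1, h2, h3] with q a b c
  exact ⟨a, b, c⟩

/-- the point `Φ t x` in a trivialisation -/
theorem triv_Φ {y : E} (ht : t ∈ S.N) (x : (𝓕.k3 t₀).X) (hy : S.Φ t x ∈ (𝓕.F.triv y).source) :
    𝓕.F.triv y (S.Φ t x) = (⟨t, S.sub ht⟩, (𝓕.F.triv y (S.Φ t x)).2) := by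
  rw [𝓕.F.mk_eq y hy]
  have h : 𝓕.F.p (S.Φ t x) = ⟨t, S.sub ht⟩ := Subtype.ext (S.p_Φ t ht x)
  rw [h]

theorem mem_target_Φ {y : E} (ht : t ∈ S.N) (x : (𝓕.k3 t₀).X)
    (hy : S.Φ t x ∈ (𝓕.F.triv y).source) :
    ((⟨t, S.sub ht⟩ : D), (𝓕.F.triv y (S.Φ t x)).2) ∈ (𝓕.F.triv y).target := by
  rw [← S.triv_Φ ht x hy]
  exact (𝓕.F.triv y).map_source hy

theorem symm_Φ {y : E} (ht : t ∈ S.N) (x : (𝓕.k3 t₀).X)
    (hy : S.Φ t x ∈ (𝓕.F.triv y).source) :
    (𝓕.F.triv y).symm (⟨t, S.sub ht⟩, (𝓕.F.triv y (S.Φ t x)).2) = S.Φ t x := by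
  rw [← S.triv_Φ ht x hy, (𝓕.F.triv y).left_inv hy]

theorem repF_apply (Φ : V → (𝓕.k3 t₀).X → E) (y : E) (hx : x ∈ e.source) :
    repF Φ e y (t, e x) = (𝓕.F.triv y (Φ t x)).2 := by
  rw [repF, e.left_inv hx]

/-- change of the chart of the fibre over `t₀` -/
theorem repF_base {e' : Ch (𝓕.k3 t₀).X} (hx : x ∈ e.source) (hx' : x ∈ e'.source) (y : E) :
    repF S.Φ e y =ᶠ[𝓝 (t, e x)] fun q => repF S.Φ e' y (q.1, e' (e.symm q.2)) := by
  have h1 : ∀ᶠ q : V × FL.C2 in 𝓝 (t, e x), q.2 ∈ e.target ∧ e.symm q.2 ∈ e'.source :=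
    continuousAt_snd.eventually_mem ((isOpen_trans e e').mem_nhds (mem_trans hx hx'))
  filter_upwards [h1] with q hq
  rw [repF, repF, e'.left_inv hq.2]

/-- change of the trivialisation -/
theorem repF_trn (ht : t ∈ S.N) (hx : x ∈ e.source) {y : E}
    (hy : S.Φ t x ∈ (𝓕.F.triv y).source) (y' : E) :
    repF S.Φ e y' =ᶠ[𝓝 (t, e x)] fun q => trn 𝓕.F y y' (q.1, repF S.Φ e y q) := by
  filter_upwards [S.eventually_Φ ht hx hy] with q hq
  have h1 := trn_apply 𝓕.F y y' ⟨q.1, S.sub hq.1⟩ (repF S.Φ e y q)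
  have h2 := S.symm_Φ hq.1 (e.symm q.2) hq.2.2
  rw [h1, repF, repF, h2]

/-- smoothness of the representatives -/
theorem smooth_repF (ht : t ∈ S.N) (he : e ∈ atlas FL.C2 (𝓕.k3 t₀).X) (hx : x ∈ e.source) {y : E}
    (hy : S.Φ t x ∈ (𝓕.F.triv y).source) : ContDiffAt ℝ ∞ (repF S.Φ e y) (t, e x) := by
  have h1 := S.repF_base (t := t) hx (mem_chart_source FL.C2 x) y
  refine ContDiffAt.congr_of_eventuallyEq ?_ h1
  have h2 := S.smooth t ht x y hy
  have h3 : ContDiffAt ℝ ∞ (fun z => (chartAt FL.C2 x) (e.symm z)) (e x) :=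
    trans_contDiffAt he (chart_mem_atlas FL.C2 x) hx (mem_chart_source FL.C2 x)
  have h4 : ContDiffAt ℝ ∞ (fun q : V × FL.C2 => (q.1, (chartAt FL.C2 x) (e.symm q.2)))
      (t, e x) :=
    contDiffAt_fst.prodMk (ContDiffAt.comp (g := fun z => (chartAt FL.C2 x) (e.symm z))
      (f := fun q : V × FL.C2 => q.2) (t, e x) h3 contDiffAt_snd)
  refine ContDiffAt.comp (g := repF S.Φ (chartAt FL.C2 x) y)
    (f := fun q : V × FL.C2 => (q.1, (chartAt FL.C2 x) (e.symm q.2))) (t, e x) ?_ h4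
  simp only [e.left_inv hx]
  exact h2

theorem analyticAt_vol (ht : t ∈ S.N) (hx : x ∈ e.source) {y : E}
    (hy : S.Φ t x ∈ (𝓕.F.triv y).source) :
    AnalyticAt ℂ (𝓕.vol y) (t, repF S.Φ e y (t, e x)) := by
  rw [repF_apply S.Φ y hx]
  exact (𝓕.vol_hol y ⟨t, S.sub ht⟩ _ (S.mem_target_Φ ht x hy)).1

theorem analyticAt_trn (ht : t ∈ S.N) (hx : x ∈ e.source) {y y' : E}
    (hy : S.Φ t x ∈ (𝓕.F.triv y).source) (hy' : S.Φ t x ∈ (𝓕.F.triv y').source) :
    AnalyticAt ℂ (trn 𝓕.F y y') (t, repF S.Φ e y (t, e x)) := by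
  rw [repF_apply S.Φ y hx]
  refine 𝓕.hol y y' ⟨t, S.sub ht⟩ _ (S.mem_target_Φ ht x hy) ?_
  rw [S.symm_Φ ht x hy]
  exact hy'

theorem law_vol (ht : t ∈ S.N) (hx : x ∈ e.source) {y y' : E}
    (hy : S.Φ t x ∈ (𝓕.F.triv y).source) (hy' : S.Φ t x ∈ (𝓕.F.triv y').source) :
    𝓕.vol y (t, repF S.Φ e y (t, e x)) =
      𝓕.vol y' (t, trn 𝓕.F y y' (t, repF S.Φ e y (t, e x))) *
        (fderiv ℂ (fun w => trn 𝓕.F y y' (t, w)) (repF S.Φ e y (t, e x))).det := by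
  rw [repF_apply S.Φ y hx]
  refine 𝓕.vol_law y y' ⟨t, S.sub ht⟩ _ (S.mem_target_Φ ht x hy) ?_
  rw [S.symm_Φ ht x hy]
  exact hy'

/-- independence of the trivialisation -/
theorem tl_repF (ht : t ∈ S.N) (he : e ∈ atlas FL.C2 (𝓕.k3 t₀).X) (hx : x ∈ e.source) {y y' : E}
    (hy : S.Φ t x ∈ (𝓕.F.triv y).source) (hy' : S.Φ t x ∈ (𝓕.F.triv y').source) (a b : FL.C2) :
    tl (𝓕.vol y') (repF S.Φ e y') (t, e x) a b = tl (𝓕.vol y) (repF S.Φ e y) (t, e x) a b :=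
  tl_change ((S.smooth_repF ht he hx hy).differentiableAt (by simp))
    (S.analyticAt_trn ht hx hy hy').differentiableAt (S.repF_trn ht hx hy y')
    (S.law_vol ht hx hy hy') a b

theorem al_repF (ht : t ∈ S.N) (he : e ∈ atlas FL.C2 (𝓕.k3 t₀).X) (hx : x ∈ e.source) {y y' : E}
    (hy : S.Φ t x ∈ (𝓕.F.triv y).source) (hy' : S.Φ t x ∈ (𝓕.F.triv y').source) (u : V)
    (b : FL.C2) :
    al (𝓕.vol y') (repF S.Φ e y') t u (e x) b = al (𝓕.vol y) (repF S.Φ e y) t u (e x) b :=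
  al_change ((S.smooth_repF ht he hx hy).differentiableAt (by simp))
    (S.analyticAt_trn ht hx hy hy').differentiableAt (S.repF_trn ht hx hy y')
    (S.law_vol ht hx hy hy') u b

/-! ### the chart formula -/

theorem fderiv_repF (ht : t ∈ S.N) (he : e ∈ atlas FL.C2 (𝓕.k3 t₀).X) (hx : x ∈ e.source) {y : E}
    (hy : S.Φ t x ∈ (𝓕.F.triv y).source) :
    HasFDerivAt (fun z => repF S.Φ e y (t, z))
      ((fderiv ℝ (repF S.Φ e y) (t, e x)).comp (ContinuousLinearMap.inr ℝ V FL.C2)) (e x) :=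
  ((S.smooth_repF ht he hx hy).differentiableAt (by simp)).hasFDerivAt.comp (e x)
    (hasFDerivAt_prodMk_right t (e x))

/-- **The form `S.T t` in charts.** -/
theorem E2_T (ht : t ∈ S.N) (he : e ∈ atlas FL.C2 (𝓕.k3 t₀).X) (hx : x ∈ e.source) {y : E}
    (hy : S.Φ t x ∈ (𝓕.F.triv y).source) (a b : FL.C2) :
    E2 e (S.T t) (e x) a b = tl (𝓕.vol y) (repF S.Φ e y) (t, e x) a b := by
  set t' : D := ⟨t, S.sub ht⟩ with ht'
  set x' : Fib 𝓕.F t' := S.homeo t ht x with hx'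
  have hval : x'.val = S.Φ t x := S.homeo_val t ht x
  have hself : S.Φ t x ∈ (𝓕.F.triv (S.Φ t x)).source := 𝓕.F.mem _
  rw [← S.tl_repF ht he hx hy hself, S.T_eq ht]
  let e₁ : OpenPartialHomeomorph (𝓕.k3 t').X (ℂ × ℂ) := fibChart 𝓕.F t' x'
  have he1 : e₁ ∈ atlas (ℂ × ℂ) (𝓕.k3 t').X := mem_range_self x'
  have hx1 : S.homeo t ht x ∈ e₁.source := 𝓕.F.mem x'.1
  have hρ : ∀ z, repF S.Φ e (S.Φ t x) (t, z) = e₁ (S.homeo t ht (e.symm z)) := by
    intro z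
    have h1 : (S.homeo t ht (e.symm z) : Fib 𝓕.F t').val = S.Φ t (e.symm z) :=
      S.homeo_val t ht (e.symm z)
    have h2 : e₁ (S.homeo t ht (e.symm z)) =
        (𝓕.F.triv x'.val (S.homeo t ht (e.symm z) : Fib 𝓕.F t').val).2 := rfl
    rw [h2, h1, hval]
    rfl
  have h := E2_pb2_OmF (𝓕.k3 t') (S.diffeo t ht).smooth he he1 hx hx1
    (fun z => repF S.Φ e (S.Φ t x) (t, z)) hρ (S.fderiv_repF ht he hx hself) a b
  rw [h]
  have hw1 : repF S.Φ e (S.Φ t x) (t, e x) ∈ (fibChart 𝓕.F t' x').target := by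
    rw [hρ (e x), e.left_inv hx]
    exact e₁.map_source hx1
  have h2 := K3Family.fvol_eq 𝓕 t' x' hw1
  rw [hval] at h2
  have h3 : (𝓕.k3 t').vol e₁ (repF S.Φ e (S.Φ t x) (t, e x)) =
      𝓕.vol (S.Φ t x) (t, repF S.Φ e (S.Φ t x) (t, e x)) := h2
  rw [h3]
  rfl

/-! ### `S.T` is a smooth family -/

theorem E2_T_eventually (ht : t ∈ S.N) (he : e ∈ atlas FL.C2 (𝓕.k3 t₀).X) (hx : x ∈ e.source)
    {y : E} (hy : S.Φ t x ∈ (𝓕.F.triv y).source) : ∀ᶠ q : V × FL.C2 in 𝓝 (t, e x),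
      ∀ a b, E2 e (S.T q.1) q.2 a b = tl (𝓕.vol y) (repF S.Φ e y) q a b := by
  filter_upwards [S.eventually_Φ ht hx hy] with q hq a b
  have h := S.E2_T hq.1 he (e.map_target hq.2.1) hq.2.2 a b
  rwa [e.right_inv hq.2.1] at h

theorem smFam : SmFam S.T S.N := by
  intro t ht e he z hz
  obtain ⟨x, hx, rfl⟩ : ∃ x ∈ e.source, e x = z := ⟨e.symm z, e.map_target hz, e.right_inv hz⟩
  have hself : S.Φ t x ∈ (𝓕.F.triv (S.Φ t x)).source := 𝓕.F.mem _
  refine contDiffAt_clm fun a => contDiffAt_clm fun b => ?_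
  refine (contDiffAt_tl (S.smooth_repF ht he hx hself) (S.analyticAt_vol ht hx hself) a
    b).congr_of_eventuallyEq ?_
  filter_upwards [S.E2_T_eventually ht he hx hself] with q hq
  exact hq a b

/-! ### the primitive of the `ū`-derivative -/

/-- the one-form `vol det (∂_ū Φ, dΦ)` -/
def alF (t u : V) : OneF (𝓕.k3 t₀).X where
  f10 x i := k10 i (alL (𝓕.vol (S.Φ t x)) (repF S.Φ (chartAt FL.C2 x) (S.Φ t x)) t u
    (chartAt FL.C2 x x))
  f01 x i := k01 i (alL (𝓕.vol (S.Φ t x)) (repF S.Φ (chartAt FL.C2 x) (S.Φ t x)) t u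
    (chartAt FL.C2 x x))

theorem val1_alF (t u : V) (x : (𝓕.k3 t₀).X) : val1 (S.alF t u) x =
    alL (𝓕.vol (S.Φ t x)) (repF S.Φ (chartAt FL.C2 x) (S.Φ t x)) t u (chartAt FL.C2 x x) :=
  ev1_comps _

/-- the one-form in charts -/
theorem E1_alF (ht : t ∈ S.N) (he : e ∈ atlas FL.C2 (𝓕.k3 t₀).X) (hx : x ∈ e.source) {y : E}
    (hy : S.Φ t x ∈ (𝓕.F.triv y).source) (u : V) (b : FL.C2) :
    E1 e (S.alF t u) (e x) b = al (𝓕.vol y) (repF S.Φ e y) t u (e x) b := by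
  have hself : S.Φ t x ∈ (𝓕.F.triv (S.Φ t x)).source := 𝓕.F.mem _
  rw [← S.al_repF ht he hx hy hself, E1_apply he _ hx, ContinuousLinearMap.comp_apply,
    val1_alF, alL_apply, Dch]
  have h1 := S.repF_base (t := t) hx (mem_chart_source FL.C2 x) (S.Φ t x)
  have h2 : DifferentiableAt ℝ (fun z => (chartAt FL.C2 x) (e.symm z)) (e x) :=
    (trans_contDiffAt he (chart_mem_atlas FL.C2 x) hx (mem_chart_source FL.C2 x)
      (n := 1)).differentiableAt (by simp)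
  have h3 : DifferentiableAt ℝ (repF S.Φ (chartAt FL.C2 x) (S.Φ t x))
      (t, (fun z => (chartAt FL.C2 x) (e.symm z)) (e x)) := by
    simp only [e.left_inv hx]
    exact (S.smooth_repF ht (chart_mem_atlas FL.C2 x) (mem_chart_source FL.C2 x)
      hself).differentiableAt (by simp)
  have h4 := al_base (g := 𝓕.vol (S.Φ t x)) h3 h2 h1 u b
  rw [h4]
  simp only [e.left_inv hx]

theorem E1_alF_eventually (ht : t ∈ S.N) (he : e ∈ atlas FL.C2 (𝓕.k3 t₀).X) (hx : x ∈ e.source)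
    {y : E} (hy : S.Φ t x ∈ (𝓕.F.triv y).source) (u : V) : ∀ᶠ z in 𝓝 (e x),
      ∀ b, E1 e (S.alF t u) z b = al (𝓕.vol y) (repF S.Φ e y) t u z b := by
  have h1 : ∀ᶠ z in 𝓝 (e x), t ∈ S.N ∧ z ∈ e.target ∧
      S.Φ t (e.symm z) ∈ (𝓕.F.triv y).source := by
    have h2 : Tendsto (fun z : FL.C2 => (t, z)) (𝓝 (e x)) (𝓝 (t, e x)) :=
      (continuous_const.prodMk continuous_id).tendsto' _ _ rfl
    exact h2.eventually (S.eventually_Φ ht hx hy)
  filter_upwards [h1] with z hz b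
  have h := S.E1_alF ht he (e.map_target hz.2.1) hz.2.2 u b
  rwa [e.right_inv hz.2.1] at h

theorem smooth_alF (ht : t ∈ S.N) (u : V) : (S.alF t u).Smooth := by
  rw [smooth1_iff]
  intro e he z hz
  obtain ⟨x, hx, rfl⟩ : ∃ x ∈ e.source, e x = z := ⟨e.symm z, e.map_target hz, e.right_inv hz⟩
  have hself : S.Φ t x ∈ (𝓕.F.triv (S.Φ t x)).source := 𝓕.F.mem _
  refine contDiffAt_clm fun b => ?_
  refine (contDiffAt_al (S.smooth_repF ht he hx hself) (S.analyticAt_vol ht hx hself) u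
    b).congr_of_eventuallyEq ?_
  filter_upwards [S.E1_alF_eventually ht he hx hself u] with z hz
  exact hz b

/-- **The derivative in the direction `ū` of the transported two-forms is exact.** -/
theorem dTb_eq (ht : t ∈ S.N) (u : V) : dTb S.T t u = (S.alF t u).d := by
  refine val2_inj fun x => ?_
  rw [val2_eq_E2, val2_eq_E2]
  set e := chartAt FL.C2 x with he'
  have he : e ∈ atlas FL.C2 (𝓕.k3 t₀).X := chart_mem_atlas FL.C2 x
  have hx : x ∈ e.source := mem_chart_source FL.C2 x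
  have hself : S.Φ t x ∈ (𝓕.F.triv (S.Φ t x)).source := 𝓕.F.mem _
  set y := S.Φ t x with hy
  have hr := S.smooth_repF ht he hx hself
  have hg := S.analyticAt_vol ht hx hself
  ext a b
  rw [S.smFam.E2_dTb_apply ht u he (e.map_source hx) a b, E2_d (S.smooth_alF ht u) he hx, alt1]
  have h1 : ∀ p : V × FL.C2, fderiv ℝ (fun q : V × FL.C2 => E2 e (S.T q.1) q.2) (t, e x) p a b =
      fderiv ℝ (fun q => tl (𝓕.vol y) (repF S.Φ e y) q a b) (t, e x) p := by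
    intro p
    have h2 := S.smFam.differentiable_E2 ht he (e.map_source hx)
    have h3 := ((h2.hasFDerivAt.clm_apply (hasFDerivAt_const a (t, e x))).clm_apply
      (hasFDerivAt_const b (t, e x)))
    have h4 : (fun q : V × FL.C2 => E2 e (S.T q.1) q.2 a b) =ᶠ[𝓝 (t, e x)]
        fun q => tl (𝓕.vol y) (repF S.Φ e y) q a b := by
      filter_upwards [S.E2_T_eventually ht he hx hself] with q hq
      exact hq a b
    rw [← h4.fderiv_eq, h3.fderiv]
    simp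
  have h5 : ∀ a b : FL.C2, fderiv ℝ (E1 e (S.alF t u)) (e x) a b =
      fderiv ℝ (fun z => al (𝓕.vol y) (repF S.Φ e y) t u z b) (e x) a := by
    intro a b
    have h2 := differentiableAt_E1 (S.smooth_alF ht u) he (e.map_source hx)
    have h3 := h2.hasFDerivAt.clm_apply (hasFDerivAt_const b (e x))
    have h4 : (fun z => E1 e (S.alF t u) z b) =ᶠ[𝓝 (e x)]
        fun z => al (𝓕.vol y) (repF S.Φ e y) t u z b := by
      filter_upwards [S.E1_alF_eventually ht he hx hself u] with q hq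
      exact hq b
    rw [← h4.fderiv_eq, h3.fderiv]
    simp
  rw [h1, h1, h5, h5]
  exact loc_identity (hr.of_le ENat.LEInfty.out) hg.differentiableAt u a b

theorem exact_dTb (ht : t ∈ S.N) (u : V) : ExactTwo (dTb S.T t u) :=
  ⟨S.alF t u, S.smooth_alF ht u, (S.dTb_eq ht u).symm⟩

/-! ### the periods -/

/-- **The periods are holomorphic**, with their derivatives. -/
theorem hasFDerivAt_per (ht : t ∈ S.N) {G : TwoF (𝓕.k3 t₀).X} (hG : G ∈ HC (𝓕.k3 t₀).X) :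
    ∃ L : V →L[ℂ] ℂ, HasFDerivAt (fun t => pair (S.T t) G) L t ∧
      ∀ u, L u = pair (dT S.T t u) G :=
  S.smFam.hasFDerivAt_per S.isOpen ht (S.exact_dTb ht) hG

theorem differentiableOn_per {G : TwoF (𝓕.k3 t₀).X} (hG : G ∈ HC (𝓕.k3 t₀).X) :
    DifferentiableOn ℂ (fun t => pair (S.T t) G) S.N := by
  intro t ht
  obtain ⟨L, hL, -⟩ := S.hasFDerivAt_per ht hG
  exact hL.differentiableAt.differentiableWithinAt

theorem fderiv_per (ht : t ∈ S.N) {G : TwoF (𝓕.k3 t₀).X} (hG : G ∈ HC (𝓕.k3 t₀).X) (u : V) :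
    fderiv ℂ (fun t => pair (S.T t) G) t u = pair (dT S.T t u) G := by
  obtain ⟨L, hL, hL2⟩ := S.hasFDerivAt_per ht hG
  rw [hL.fderiv, hL2]

theorem mem_HC_T (ht : t ∈ S.N) : S.T t ∈ HC (𝓕.k3 t₀).X :=
  H342.mem_HC_iff.2 ⟨S.smooth_T t ht, S.closed_T t ht⟩

theorem mem_HC_dT (ht : t ∈ S.N) (u : V) : dT S.T t u ∈ HC (𝓕.k3 t₀).X :=
  H342.mem_HC_iff.2 ⟨S.smFam.smooth_dT ht u,
    S.smFam.closed_dT S.isOpen ht (fun t ht => S.closed_T t ht) u⟩

end SmTriv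

end Vale.Agent.P290.H722
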