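import Vale.Agent.P290.H722.Cone
import Vale.Agent.P290.H362.F2Per
import Vale.Agent.P290.H445.Parity

/-!
# P290, F3-INT (helper722): integrality and evenness from a family of closed forms

`T z` closed two-forms with holomorphic periods, `T 0 ∧ T 0 = 0`, `T 0 ∧ conj (T 0) ≠ 0`, whose
derivative at `0` is not cohomologous to a multiple of `T 0`. If every integral class with
`∫ T z ∧ c = 0` for some small `z` has even square, the intersection form is integral and even.
-/

set_option linter.unusedVariables false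
set_option linter.unusedSectionVars false

open scoped Manifold ContDiff ComplexConjugate Topology
open Set Filter

noncomputable section

namespace Vale.Agent.P290.H722

open Vale.Agent.P267 Vale.Agent.P267.FL Vale.Agent.P267.RR Vale.Agent.P267.BlockC
  Vale.Agent.P267.H332 Vale.Agent.P267.H757 Vale.Agent.P267.H469 Vale.Agent.P290.H342
  Vale.Agent.P290.H445 Vale.Agent.P290.H416 Vale.Agent.P290.H362

section nondeg

variable {Y : Type} [TopologicalSpace Y] [ChartedSpace FL.C2 Y]

/-- **Nondegeneracy.** A closed form without periods is exact. -/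
theorem exact_of_periods (D : NerveIn Y) (H : FormFacts Y) {F : TwoF Y} (hF : F.Smooth)
    (hc : F.Closed) (h : ∀ n, pair F (D.L n).L.curv = 0) : ExactTwo F := by
  classical
  let Q := TwoF Y ⧸ exactSub H
  let q : TwoF Y →ₗ[ℂ] Q := (exactSub H).mkQ
  have hq : ∀ F G : TwoF Y, q F = q G ↔ ExactTwo (F - G) := fun F G => by
    change (Submodule.Quotient.mk F : Q) = Submodule.Quotient.mk G ↔ _
    rw [Submodule.Quotient.eq, mem_exactSub]
  have hadd : ∀ m n, q (D.L (m + n)).L.curv = q (D.L m).L.curv + q (D.L n).L.curv := by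
    intro m n
    rw [← map_add, hq]
    exact D.add m n
  let cl : D.Z →+ Q := AddMonoidHom.mk' (fun n => q (D.L n).L.curv) hadd
  have hzero : ∀ n, cl n = 0 ↔ ExactTwo (D.L n).L.curv := by
    intro n
    change q (D.L n).L.curv = 0 ↔ _
    rw [← map_zero q, hq, sub_zero]
  have t1 : Module.IsTorsionFree ℤ Q := by
    refine ⟨fun n hn => ?_⟩
    intro v w h
    have hn0 : (n : ℂ) ≠ 0 := by
      have : n ≠ 0 := by
        rintro rfl
        exact (isRegular_iff_ne_zero.1 hn) rfl
      exact_mod_cast this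
    simp only at h
    have h1 : (n : ℂ) • v = (n : ℂ) • w := by
      rw [Int.cast_smul_eq_zsmul, Int.cast_smul_eq_zsmul]
      exact h
    have h2 := congrArg (fun u => (n : ℂ)⁻¹ • u) h1
    simpa [smul_smul, inv_mul_cancel₀ hn0] using h2
  let c : D.Z →ₗ[ℤ] Q := cl.toIntLinearMap
  let R : Submodule ℤ Q := LinearMap.range c
  have hfin : Module.Finite ℤ R := inferInstance
  have hfree : Module.Free ℤ R := inferInstance
  let b := Module.finBasis ℤ R
  -- dual basis
  have hd : ∀ i, ∃ m, ∀ n, isec (D.L n).L (D.L m).L = ((b.coord i (c.rangeRestrict n) : ℤ) : ℂ) := by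
    intro i
    refine D.dual ((b.coord i).comp c.rangeRestrict).toAddMonoidHom fun n hn => ?_
    have : c.rangeRestrict n = 0 := Subtype.ext ((hzero n).2 hn)
    change b.coord i (c.rangeRestrict n) = 0
    rw [this, map_zero]
  choose m hm using hd
  obtain ⟨k, t, n, hspan⟩ := D.span F hF hc
  have h1 : ∀ j, ∑ i, t i * ((b.coord j (c.rangeRestrict (n i)) : ℤ) : ℂ) = 0 := by
    intro j
    have h2 := H.pair_of_exact_sub t hspan (H.curv_smooth (D.L (m j))) (H.curv_closed (D.L (m j)))
    rw [h] at h2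
    have h3 : ∀ i, t i * ((b.coord j (c.rangeRestrict (n i)) : ℤ) : ℂ) =
        -(1 / (4 * (Real.pi : ℂ) ^ 2)) * (t i * pair (D.L (n i)).L.curv (D.L (m j)).L.curv) := by
      intro i
      rw [← hm j (n i), BlockC.isec_eq]
      ring
    rw [Finset.sum_congr rfl fun i _ => h3 i, ← Finset.mul_sum, ← h2, mul_zero]
  have hcl : ∀ n, cl n = ∑ j, (b.coord j (c.rangeRestrict n) : ℤ) • (b j : Q) := by
    intro n
    have h1 := b.sum_repr (c.rangeRestrict n)
    have h2 := congrArg (Submodule.subtype R) h1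
    rw [map_sum] at h2
    simp only [map_smul, Submodule.subtype_apply] at h2
    exact h2.symm
  have h4 : q F = q 0 := by
    rw [map_zero]
    rw [← hq] at hspan
    rw [hspan, map_sum]
    have h5 : ∀ i, q (t i • (D.L (n i)).L.curv) =
        ∑ j, (t i * ((b.coord j (c.rangeRestrict (n i)) : ℤ) : ℂ)) • (b j : Q) := by
      intro i
      have h6 : q (D.L (n i)).L.curv = cl (n i) := rfl
      rw [map_smul, h6, hcl, Finset.smul_sum]
      refine Finset.sum_congr rfl fun j _ => ?_
      rw [← Int.cast_smul_eq_zsmul ℂ, smul_smul]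
    rw [Finset.sum_congr rfl fun i _ => h5 i, Finset.sum_comm]
    refine Finset.sum_eq_zero fun j _ => ?_
    rw [← Finset.sum_smul, h1 j, zero_smul]
  rw [hq, sub_zero] at h4
  exact h4

end nondeg

section form

variable {Y : Type} [TopologicalSpace Y] [ChartedSpace FL.C2 Y] [IsManifold 𝓘(ℂ, FL.C2) ω Y]
variable [T2Space Y] [CompactSpace Y] [ConnectedSpace Y]

theorem pair_bar {F G : TwoF Y} (hF : F.Smooth) (hG : G.Smooth) :
    pair F.bar G.bar = conj (pair F G) := I22L_conj (mk2 F hF) (mk2 G hG)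

theorem curv_bar (L : ALB Y) : L.L.curv.bar = -L.L.curv := by
  have h1 : toF (C2L (cv L)) = L.L.curv.bar := rfl
  rw [← h1, C2L_cv]
  rfl

/-- pairing of a conjugate form with a line bundle -/
theorem pair_bar_curv {F : TwoF Y} (hF : F.Smooth) (L : ALB Y) :
    pair F.bar L.L.curv = -conj (pair F L.L.curv) := by
  have h1 := pair_bar hF L.L.curv_smooth
  rw [curv_bar] at h1
  have h2 : L.L.curv = (-1 : ℂ) • (-L.L.curv) := by
    rw [neg_one_smul, neg_neg]
  have hs : (-L.L.curv).Smooth := by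
    have := TwoF_smooth_smul (-1) L.L.curv_smooth
    rwa [neg_one_smul] at this
  have hb : F.bar.Smooth := toF_smooth (C2L (mk2 F hF))
  conv_lhs => rw [h2]
  rw [H342.pair_comm, pair_smul_left intAx (-1) hs hb, H342.pair_comm, h1]
  ring

/-- **Integrality and evenness from a family of closed forms.** -/
theorem int_even_form (D : NerveIn Y) (H : FormFacts Y) (T : ℂ → TwoF Y) (T' : TwoF Y)
    (hT : ∀ᶠ z in 𝓝 (0 : ℂ), T z ∈ HC Y) (hT' : T' ∈ HC Y)
    (hdiff : ∀ n, ∀ᶠ z in 𝓝 (0 : ℂ), DifferentiableAt ℂ (fun z => pair (T z) (D.L n).L.curv) z)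
    (hd : ∀ n, deriv (fun z => pair (T z) (D.L n).L.curv) 0 = pair T' (D.L n).L.curv)
    (h00 : pair (T 0) (T 0) = 0) (h01 : pair T' (T 0) = 0) (hpos : pair (T 0).bar (T 0) ≠ 0)
    (hne : ∀ a : ℂ, ¬ ExactTwo (T' - a • T 0))
    (hev : ∀ᶠ z in 𝓝 (0 : ℂ), ∀ n, pair (T z) (D.L n).L.curv = 0 →
      ∃ k : ℤ, isec (D.L n).L (D.L n).L = 2 * k) :
    (∀ n, ∃ k : ℤ, isec (D.L n).L (D.L n).L = 2 * k) ∧
      ∀ m n, ∃ k : ℤ, isec (D.L m).L (D.L n).L = k := by
  have hI := intAx (X := Y)
  have hcur : ∀ L : ALB Y, L.L.curv ∈ HC Y := fun L =>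
    mem_HC_iff.2 ⟨L.L.curv_smooth, L.L.curv_closed⟩
  refine even_of_cone (D.form H) (fun x y => by
      rw [D.form_apply, D.form_apply, BlockC.isec_comm]) (fun n z => pair (T z) (D.L n).L.curv)
    (fun n => pair T' (D.L n).L.curv) ?_ hdiff hd ?_ hev
  · filter_upwards [hT] with z hz m n
    have h1 : pair (D.L (m + n)).L.curv (T z) =
        pair ((D.L m).L.curv + (D.L n).L.curv) (T z) :=
      pair_congr_exact (hcur _).1 (TwoF_smooth_add (hcur _).1 (hcur _).1) (D.add m n) hz
    rw [H342.pair_comm, h1, pair_add_left hI (hcur _).1 (hcur _).1 hz.1, H342.pair_comm,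
      H342.pair_comm (D.L n).L.curv]
  · intro a b
    by_contra hcon
    push Not at hcon
    have hT0 := hT.self_of_nhds
    have hB := bar_mem hT0
    -- the closed form without periods
    have e1 : (a • T 0).Smooth := TwoF_smooth_smul a hT0.1
    have e2 : (b • (T 0).bar).Smooth := TwoF_smooth_smul b hB.1
    have e3 : (-(a • T 0)).Smooth := by
      have := TwoF_smooth_smul (-1) e1
      rwa [neg_one_smul] at this
    have e4 : (T' - a • T 0).Smooth := by
      rw [sub_eq_add_neg]
      exact TwoF_smooth_add hT'.1 e3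
    have hFm : T' - a • T 0 + b • (T 0).bar ∈ HC Y :=
      Submodule.add_mem _ (Submodule.sub_mem _ hT' (Submodule.smul_mem _ _ hT0))
        (Submodule.smul_mem _ _ hB)
    have hp : ∀ G ∈ HC Y, pair (T' - a • T 0 + b • (T 0).bar) G =
        pair T' G - a * pair (T 0) G + b * pair (T 0).bar G := by
      intro G hG
      have h3 : T' - a • T 0 = T' + (-a) • T 0 := by rw [neg_smul, sub_eq_add_neg]
      rw [pair_add_left hI e4 e2 hG.1, h3,
        pair_add_left hI hT'.1 (TwoF_smooth_smul (-a) hT0.1) hG.1,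
        pair_smul_left hI (-a) hT0.1 hG.1, pair_smul_left hI b hB.1 hG.1]
      ring
    have hex : ExactTwo (T' - a • T 0 + b • (T 0).bar) := by
      refine exact_of_periods D H hFm.1 (mem_HC_iff.1 hFm).2 fun n => ?_
      rw [hp _ (hcur _), hcon n, pair_bar_curv hT0.1]
      ring
    have h2 := pair_exact hI hex hT0
    rw [hp _ hT0, h01, h00, mul_zero, sub_zero, zero_add] at h2
    have hb : b = 0 := (mul_eq_zero.1 h2).resolve_right hpos
    rw [hb, zero_smul, add_zero] at hex
    exact hne a hex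

/-- from the nerve to all line bundles -/
theorem int_even_all (D : NerveIn Y) (H : FormFacts Y)
    (h : (∀ n, ∃ k : ℤ, isec (D.L n).L (D.L n).L = 2 * k) ∧
      ∀ m n, ∃ k : ℤ, isec (D.L m).L (D.L n).L = k) :
    (∀ M : ALB Y, ∃ k : ℤ, isec M.L M.L = 2 * k) ∧
      ∀ M M' : ALB Y, ∃ k : ℤ, isec M.L M'.L = k := by
  obtain ⟨hev, hint⟩ := h
  refine ⟨fun M => ?_, fun M M' => ?_⟩
  · obtain ⟨n, hn⟩ := D.surj M
    obtain ⟨k, hk⟩ := hev n
    refine ⟨k, ?_⟩
    rw [isec_congr H hn, BlockC.isec_comm, isec_congr H hn]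
    exact hk
  · obtain ⟨n, hn⟩ := D.surj M
    obtain ⟨n', hn'⟩ := D.surj M'
    obtain ⟨k, hk⟩ := hint n n'
    refine ⟨k, ?_⟩
    rw [isec_congr H hn, BlockC.isec_comm, isec_congr H hn', BlockC.isec_comm]
    exact hk

/-- `UData` with even form, from integrality and evenness -/
theorem uData_of_int_even (D : NerveIn Y) (H : FormFacts Y)
    (h1 : ∀ M : ALB Y, ∃ k : ℤ, isec M.L M.L = 2 * k)
    (h2 : ∀ M M' : ALB Y, ∃ k : ℤ, isec M.L M'.L = k) :
    ∃ (N : ℕ) (U : UData Y N), ∀ k, Even (U.B k k) := by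
  obtain ⟨N, hN⟩ := D.unimod H h2
  obtain ⟨U⟩ := nonempty_uData_iff.2 hN
  refine ⟨N, U, fun k => ?_⟩
  obtain ⟨L, hL⟩ := U.exists_c1 (H445.lbFacts Y) k
  obtain ⟨j, hj⟩ := h1 L
  rw [U.isec_c1 (intAx (X := Y)) (H445.lbFacts Y), hL] at hj
  refine (even_iff_two_dvd).2 ⟨j, ?_⟩
  exact_mod_cast hj

end form

end Vale.Agent.P290.H722
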