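import Vale.Agent.P290.H722.Per
import Vale.Agent.P290.H722.IntForm

/-!
# P290, F3-INT (helper722): integrality and evenness at a member with nonzero Kodaira-Spencer class
-/

set_option linter.unusedVariables false
set_option linter.unusedSectionVars false

open scoped Manifold ContDiff ComplexConjugate Topology
open Set Filter

noncomputable section

namespace Vale.Agent.P290.H722

open Vale.Agent.P267 Vale.Agent.P267.FL Vale.Agent.P267.RR Vale.Agent.P267.BlockC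
  Vale.Agent.P267.H332 Vale.Agent.P267.H757 Vale.Agent.P267.H469 Vale.Agent.P290.H342
  Vale.Agent.P290.H445 Vale.Agent.P290.H416 Vale.Agent.P290.H362 Vale.Agent.P290.H686
  Vale.Agent.P290.H805 Vale.Agent.P290.H95

/-! ### the square of a family -/

section sq

variable {X : Type*} [TopologicalSpace X] [ChartedSpace FL.C2 X] [IsManifold 𝓘(ℂ, FL.C2) ω X]
variable {V : Type*} [NormedAddCommGroup V] [NormedSpace ℝ V] {T : V → TwoF X} {N : Set V} {t₁ : V}

/-- the derivative of `T ∧ T` is `2 dT ∧ T` -/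
theorem SmFam.hasFDerivAt_sq (h : SmFam T N) (ht : t₁ ∈ N) (x : X) : ∃ L : V →L[ℝ] ℂ,
    HasFDerivAt (fun t => (T t).wedge (T t) x) L t₁ ∧
      ∀ u, L u = 2 * (dT T t₁ u).wedge (T t₁) x := by
  have k : ∀ a b c d : FL.C2, HasFDerivAt (fun t => val2 (T t) x a b * val2 (T t) x c d)
      (val2 (T t₁) x a b • fderiv ℝ (fun t => val2 (T t) x c d) t₁ +
        val2 (T t₁) x c d • fderiv ℝ (fun t => val2 (T t) x a b) t₁) t₁ := fun a b c d =>
    (h.hasFDerivAt_val2' ht x a b).mul (h.hasFDerivAt_val2' ht x c d)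
  have hs := (((((k (Pi.single 0 1) (Pi.single 0 Complex.I)
      (Pi.single 1 1) (Pi.single 1 Complex.I)).fun_add
    (k (Pi.single 1 1) (Pi.single 1 Complex.I)
      (Pi.single 0 1) (Pi.single 0 Complex.I))).fun_sub
    (k (Pi.single 0 1) (Pi.single 1 1)
      (Pi.single 0 Complex.I) (Pi.single 1 Complex.I))).fun_sub
    (k (Pi.single 0 Complex.I) (Pi.single 1 Complex.I)
      (Pi.single 0 1) (Pi.single 1 1))).fun_add
    (k (Pi.single 0 1) (Pi.single 1 Complex.I)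
      (Pi.single 0 Complex.I) (Pi.single 1 1))).fun_add
    (k (Pi.single 0 Complex.I) (Pi.single 1 1)
      (Pi.single 0 1) (Pi.single 1 Complex.I))
  have hs2 := hs.const_mul (1 / 4 : ℂ)
  have h1 : (fun t => (T t).wedge (T t) x) = fun t => (1 / 4 : ℂ) * wd (val2 (T t) x) (val2 (T t) x)
      (Pi.single 0 1) (Pi.single 0 Complex.I) (Pi.single 1 1) (Pi.single 1 Complex.I) := by
    funext t
    exact SmFam.wedge_eq (T t) (T t) x
  rw [h1]
  refine ⟨_, hs2, fun u => ?_⟩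
  rw [SmFam.wedge_eq]
  simp only [wd, h.val2_dT_apply ht, _root_.smul_apply, _root_.add_apply, _root_.sub_apply,
    smul_eq_mul]
  ring

end sq

variable {V : Type} [NormedAddCommGroup V] [NormedSpace ℂ V] {D : Set V}
  {E : Type} [TopologicalSpace E] [T2Space E] {𝓕 : K3Family V D E} {t₀ : D}

namespace SmTriv

variable (S : SmTriv 𝓕 t₀) {t : V}

/-- `T ∧ T = 0` -/
theorem wedge_T (ht : t ∈ S.N) : (S.T t).wedge (S.T t) = 0 := by
  funext x
  have he := chart_mem_atlas FL.C2 x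
  have hx := mem_chart_source FL.C2 x
  rw [SmFam.wedge_eq, val2_eq_E2]
  simp only [wd, S.E2_T ht he hx (𝓕.F.mem (S.Φ t x)), tl, det2, Pi.zero_apply]
  ring

/-- `dT ∧ T = 0` -/
theorem wedge_dT_T (ht : t ∈ S.N) (u : V) : (dT S.T t u).wedge (S.T t) = 0 := by
  funext x
  obtain ⟨L, hL, hL2⟩ := S.smFam.hasFDerivAt_sq ht x
  have h1 : (fun t => (S.T t).wedge (S.T t) x) =ᶠ[𝓝 t] fun _ => 0 := by
    filter_upwards [S.isOpen.mem_nhds ht] with s hs
    rw [S.wedge_T hs]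
    rfl
  have h2 := (hL.congr_of_eventuallyEq h1.symm).unique (hasFDerivAt_const (0 : ℂ) t)
  have h3 := hL2 u
  rw [h2] at h3
  have h4 := (mul_eq_zero.1 h3.symm).resolve_left two_ne_zero
  exact h4

theorem intX_zero' (X : All.K3) : intX (0 : X.X → ℂ) = 0 := by
  have h1 := pair_smul_left (intAx (X := X.X)) 0 (F := OmF X) (G := OmF X) (OmF_smooth X)
    (OmF_smooth X)
  have h2 : ((0 : ℂ) • OmF X).wedge (OmF X) = 0 := by
    funext x
    simp [TwoF.wedge]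
  rw [zero_mul, pair, h2] at h1
  exact h1

theorem pair_T_T (ht : t ∈ S.N) : pair (S.T t) (S.T t) = 0 := by
  rw [pair, S.wedge_T ht, intX_zero']

theorem pair_dT_T (ht : t ∈ S.N) (u : V) : pair (dT S.T t u) (S.T t) = 0 := by
  rw [pair, S.wedge_dT_T ht, intX_zero']

/-- at the centre -/
theorem T_t₀ : S.T t₀ = OmF (𝓕.k3 t₀) := by
  rw [S.T_eq S.mem]
  have h : (S.homeo t₀ S.mem : (𝓕.k3 t₀).X → (𝓕.k3 t₀).X) = fun x => x := by
    funext x
    exact Fib.ext ((S.homeo_val t₀ S.mem x).trans (S.Φ₀ x))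
  change pb2 (S.homeo t₀ S.mem : (𝓕.k3 t₀).X → (𝓕.k3 t₀).X) (OmF (𝓕.k3 t₀)) = _
  rw [h]
  exact pb2_id _

theorem pair_OmF_bar_ne (X : All.K3) : pair (OmF X).bar (OmF X) ≠ 0 := by
  intro h
  have h1 : mk2 (OmF X) (OmF_smooth X) = 0 := by
    refine pos20L _ ?_ ?_
    · refine Prod.ext rfl (Prod.ext (Subtype.ext ?_) (Subtype.ext ?_))
      · rfl
      · rfl
    · have h2 : I22L (mk2 (OmF X) (OmF_smooth X)) (C2L (mk2 (OmF X) (OmF_smooth X))) =
          pair (OmF X) (OmF X).bar := rfl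
      rw [h2, H342.pair_comm, h]
      simp
  have h2 := congrArg (fun F : Om2 X.X => toF F) h1
  have h3 : OmF X = 0 := h2
  obtain ⟨x⟩ : Nonempty X.X := inferInstance
  have h4 := congrArg (fun F : TwoF X.X => F.f20 x) h3
  exact Om_ne_zero X x h4

/-- **Integrality and evenness at a member with nonzero Kodaira-Spencer class**, from the
infinitesimal Torelli theorem. -/
theorem int_even (v : V) (hv : ∀ a : ℂ, ¬ ExactTwo (dT S.T t₀ v - a • OmF (𝓕.k3 t₀)))
    (hS : ∀ Y : All.K3, SerreStmt Y.X) (hR : ∀ Y : All.K3, RRStmt Y.X)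
    (D : NerveIn (𝓕.k3 t₀).X) :
    (∀ M : ALB (𝓕.k3 t₀).X, ∃ k : ℤ, isec M.L M.L = 2 * k) ∧
      ∀ M M' : ALB (𝓕.k3 t₀).X, ∃ k : ℤ, isec M.L M'.L = k := by
  have H := ff (𝓕.k3 t₀)
  set ℓ : ℂ → V := fun z => (t₀ : V) + z • v with hℓ
  have hℓ0 : ℓ 0 = t₀ := by simp [hℓ]
  have hℓd : ∀ z, HasDerivAt ℓ v z := fun z => by
    have := (hasDerivAt_id z).smul_const v
    rw [one_smul] at this
    exact this.const_add _
  have hN : ∀ᶠ z in 𝓝 (0 : ℂ), ℓ z ∈ S.N := by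
    have h1 : ContinuousAt ℓ 0 := (hℓd 0).continuousAt
    apply h1.eventually_mem
    rw [hℓ0]
    exact S.isOpen.mem_nhds S.mem
  have hcur : ∀ L : ALB (𝓕.k3 t₀).X, L.L.curv ∈ HC (𝓕.k3 t₀).X := fun L =>
    mem_HC_iff.2 ⟨L.L.curv_smooth, L.L.curv_closed⟩
  refine int_even_all D H (int_even_form D H (fun z => S.T (ℓ z)) (dT S.T t₀ v) ?_
    (S.mem_HC_dT S.mem v) ?_ ?_ ?_ ?_ ?_ ?_ ?_)
  · filter_upwards [hN] with z hz
    exact S.mem_HC_T hz
  · intro n
    filter_upwards [hN] with z hz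
    obtain ⟨L, hL, -⟩ := S.hasFDerivAt_per hz (hcur (D.L n))
    exact hL.differentiableAt.comp z (hℓd z).differentiableAt
  · intro n
    obtain ⟨L, hL, hL2⟩ := S.hasFDerivAt_per S.mem (hcur (D.L n))
    rw [← hℓ0] at hL
    have h1 := hL.comp_hasDerivAt (0 : ℂ) (hℓd 0)
    rw [hL2] at h1
    exact h1.deriv
  · rw [hℓ0]
    exact S.pair_T_T S.mem
  · rw [hℓ0]
    exact S.pair_dT_T S.mem v
  · rw [hℓ0, S.T_t₀]
    exact pair_OmF_bar_ne _
  · rw [hℓ0, S.T_t₀]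
    exact hv
  · filter_upwards [hN] with z hz n hn
    rw [S.T_eq hz] at hn
    exact even_of_pair_zero (𝓕.k3 t₀) (𝓕.k3 ⟨ℓ z, S.sub hz⟩) (hS _) (hR _) (S.homeo (ℓ z) hz)
      (S.diffeo (ℓ z) hz) (D.L n).L hn

/-- **`UData` with even form at a member with nonzero Kodaira-Spencer class.** -/
theorem exists_uData (v : V) (hv : ∀ a : ℂ, ¬ ExactTwo (dT S.T t₀ v - a • OmF (𝓕.k3 t₀)))
    (hS : ∀ Y : All.K3, SerreStmt Y.X) (hR : ∀ Y : All.K3, RRStmt Y.X)
    (D : NerveIn (𝓕.k3 t₀).X) :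
    ∃ (N : ℕ) (U : UData (𝓕.k3 t₀).X N), ∀ k, Even (U.B k k) := by
  obtain ⟨h1, h2⟩ := S.int_even v hv hS hR D
  exact uData_of_int_even D (ff _) h1 h2

end SmTriv

end Vale.Agent.P290.H722
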