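import Vale.Agent.P290.H722.IntFam
import Vale.Agent.P290.H867.P3
import Vale.Agent.P290.H362.F2Asm

/-!
# P290, Phase 2 (helper722): the Kodaira-Spencer hypothesis of the assembly holds
-/

set_option linter.unusedVariables false
set_option linter.unusedSectionVars false

open scoped Manifold ContDiff ComplexConjugate Topology
open Set Filter

noncomputable section

namespace Vale.Agent.P290.H722

open Vale.Agent.P267 Vale.Agent.P267.FL Vale.Agent.P267.RR Vale.Agent.P267.BlockC
  Vale.Agent.P267.H332 Vale.Agent.P290.H342 Vale.Agent.P290.H445 Vale.Agent.P290.H686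
  Vale.Agent.P290.H805 Vale.Agent.P290.H95

variable {V : Type} [NormedAddCommGroup V] [NormedSpace ℂ V] {D : Set V}
  {E : Type} [TopologicalSpace E] [T2Space E] {𝓕 : K3Family V D E} {t₀ : D}

namespace SmTriv

variable (S : SmTriv 𝓕 t₀)

/-- the value of `S.T t` in the preferred charts -/
theorem val2_T {t : V} (ht : t ∈ S.N) (p : (𝓕.k3 t₀).X) (y : E)
    (hy : S.Φ t p ∈ (𝓕.F.triv y).source) (v w : FL.C2) :
    val2 (S.T t) p v w = 𝓕.vol y (t, repF S.Φ (chartAt FL.C2 p) y (t, chartAt FL.C2 p p)) *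
      area (fderiv ℝ (fun z => repF S.Φ (chartAt FL.C2 p) y (t, z)) (chartAt FL.C2 p p) v)
        (fderiv ℝ (fun z => repF S.Φ (chartAt FL.C2 p) y (t, z)) (chartAt FL.C2 p p) w) := by
  have he := chart_mem_atlas FL.C2 p
  have hx := mem_chart_source FL.C2 p
  rw [val2_eq_E2, S.E2_T ht he hx hy, (S.fderiv_repF ht he hx hy).fderiv]
  rfl

/-- **The Kodaira-Spencer class vanishes in the direction `v` if the derivative of the class of the
two-form is proportional to it.** -/
theorem infTrivial (hD : IsOpen D) (v : V) (a : ℂ)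
    (h : ExactTwo (dT S.T t₀ v - a • OmF (𝓕.k3 t₀))) : InfTrivial 𝓕.F t₀ v := by
  have h1 := H342.exact_sub h (S.exact_dTb S.mem v)
  have h2 : dT S.T t₀ v - a • OmF (𝓕.k3 t₀) - dTb S.T t₀ v =
      H867.dTh S.T (t₀ : V) v - a • H867.OmF (𝓕.k3 t₀) := by
    have e1 : H867.OmF (𝓕.k3 t₀) = OmF (𝓕.k3 t₀) := rfl
    rw [e1, H867.dTh, dTb]
    module
  rw [h2] at h1
  obtain ⟨A, hA, hAd⟩ := h1
  exact H867.infTrivial_of_dTh hD S S.smFam (fun s hs p y hy v w => S.val2_T hs p y hy v w) v a hA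
    hAd.symm

end SmTriv

/-- **The hypothesis `KS` of the assembly.** -/
theorem ks (hD : IsOpen D) (S : SmTriv 𝓕 t₀) : H362.KS S := fun v a h => S.infTrivial hD v a h

/-- **`UData` with even form at every member with nonzero Kodaira-Spencer class.** -/
theorem exists_uData_of_ks (hD : IsOpen D) (S : SmTriv 𝓕 t₀) (v : V) (hv : ¬ InfTrivial 𝓕.F t₀ v)
    (hS : ∀ Y : All.K3, SerreStmt Y.X) (hR : ∀ Y : All.K3, RRStmt Y.X)
    (D' : NerveIn (𝓕.k3 t₀).X) :
    ∃ (N : ℕ) (U : UData (𝓕.k3 t₀).X N), ∀ k, Even (U.B k k) :=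
  S.exists_uData v (fun a h => hv (S.infTrivial hD v a h)) hS hR D'

end Vale.Agent.P290.H722
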