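import Vale.Agent.P290.H722.SmFam
import Vale.Agent.P290.H342.UData
import Vale.Agent.P267.H332.Pair.IntAx

/-!
# P290, Phase 2 (helper722): periods of a smooth family of closed two-forms over a complex base

`dTb T t₁ u = (1/2) (dT u + i dT (i u))` : the derivative of `T` in the direction `ū`. If it is exact
for all `u`, the pairings of `T t` with closed forms are holomorphic in `t`.
-/

set_option linter.unusedSectionVars false
set_option linter.unusedVariables false

open scoped Manifold ContDiff Topology ComplexConjugate Matrix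
open MeasureTheory Set Filter Vale.Agent.P267.FL Vale.Agent.P290.H686
  Vale.Agent.P267.BlockC Vale.Agent.P267.RR Vale.Agent.P267.H332 Vale.Agent.P267.H757
  Vale.Agent.P290.H342

noncomputable section

namespace Vale.Agent.P290.H722

section cl

/-- a real-linear map with `L (i u) = i L u` is complex linear -/
def mkLin {V : Type*} [NormedAddCommGroup V] [NormedSpace ℂ V] (L : V →L[ℝ] ℂ)
    (h : ∀ u, L (Complex.I • u) = Complex.I * L u) : V →L[ℂ] ℂ where
  toFun := L
  map_add' := map_add L
  map_smul' c u := by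
    have h1 : c • u = c.re • u + c.im • (Complex.I • u) := by
      conv_lhs => rw [← Complex.re_add_im c]
      rw [add_smul, mul_smul, Complex.coe_smul, Complex.coe_smul]
    rw [h1, map_add, map_smul, map_smul, h, RingHom.id_apply, smul_eq_mul, Complex.real_smul,
      Complex.real_smul]
    conv_rhs => rw [← Complex.re_add_im c]
    ring
  cont := L.continuous

theorem mkLin_apply {V : Type*} [NormedAddCommGroup V] [NormedSpace ℂ V] (L : V →L[ℝ] ℂ)
    (h : ∀ u, L (Complex.I • u) = Complex.I * L u) (u : V) : mkLin L h u = L u := rfl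

end cl

variable {X : Type*} [TopologicalSpace X] [ChartedSpace C2 X] [IsManifold 𝓘(ℂ, C2) ω X]
variable {V : Type*} [NormedAddCommGroup V] [NormedSpace ℂ V]

/-- the derivative of the family of forms `T` at `t₁` in the direction `ū` -/
def dTb (T : V → TwoF X) (t₁ u : V) : TwoF X :=
  (1 / 2 : ℂ) • (dT T t₁ u + Complex.I • dT T t₁ (Complex.I • u))

variable {T : V → TwoF X} {N : Set V} {t₁ : V}

theorem SmFam.E2_dTb_apply (h : SmFam T N) (ht : t₁ ∈ N) (u : V) {e : Ch X} (he : e ∈ atlas C2 X)
    {z : C2} (hz : z ∈ e.target) (v w : C2) : E2 e (dTb T t₁ u) z v w =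
      (1 / 2 : ℂ) * (fderiv ℝ (fun q : V × C2 => E2 e (T q.1) q.2) (t₁, z) (u, 0) v w +
        Complex.I * fderiv ℝ (fun q : V × C2 => E2 e (T q.1) q.2) (t₁, z)
          (Complex.I • u, 0) v w) := by
  rw [← h.E2_dT_apply ht u he hz, ← h.E2_dT_apply ht (Complex.I • u) he hz]
  obtain ⟨x, hx, rfl⟩ : ∃ x ∈ e.source, e x = z := ⟨e.symm z, e.map_target hz, e.right_inv hz⟩
  rw [E2_apply he _ hx, E2_apply he _ hx, E2_apply he _ hx, dTb, val2_smul', val2_add',
    val2_smul']

variable [T2Space X] [CompactSpace X]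

/-- **The periods of a family whose `∂̄`-derivatives are exact are holomorphic.** -/
theorem SmFam.hasFDerivAt_per (h : SmFam T N) (hN : IsOpen N) (ht : t₁ ∈ N)
    (hex : ∀ u, ExactTwo (dTb T t₁ u)) {G : TwoF X} (hG : G ∈ HC X) :
    ∃ L : V →L[ℂ] ℂ, HasFDerivAt (fun t => pair (T t) G) L t₁ ∧
      ∀ u, L u = pair (dT T t₁ u) G := by
  obtain ⟨L, hL, hL2⟩ := h.hasFDerivAt_pair hN ht hG.1
  have hI := intAx (X := X)
  have key : ∀ u, L (Complex.I • u) = Complex.I * L u := by
    intro u
    have h1 := pair_exact hI (hex u) hG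
    have s1 := h.smooth_dT ht u
    have s2 := h.smooth_dT ht (Complex.I • u)
    have s3 := TwoF_smooth_smul Complex.I s2
    rw [dTb, pair_smul_left hI _ (TwoF_smooth_add s1 s3) hG.1, pair_add_left hI s1 s3 hG.1,
      pair_smul_left hI _ s2 hG.1] at h1
    have e1 : L u = pair (dT T t₁ u) G := hL2 u
    have e2 : L (Complex.I • u) = pair (dT T t₁ (Complex.I • u)) G := hL2 _
    rw [← e1, ← e2] at h1
    have h2 : L u + Complex.I * L (Complex.I • u) = 0 := by
      have := mul_eq_zero.1 h1
      rcases this with h3 | h3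
      · norm_num at h3
      · exact h3
    have h3 : Complex.I * (L u + Complex.I * L (Complex.I • u)) = 0 := by rw [h2, mul_zero]
    have h4 : Complex.I * Complex.I = -1 := Complex.I_mul_I
    linear_combination h4 * L (Complex.I • u) - h3
  refine ⟨mkLin L key, hasFDerivAt_of_restrictScalars ℝ hL ?_, hL2⟩
  ext u
  rfl

end Vale.Agent.P290.H722
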